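import Mathlib

/-!
# A two-dimensional Hall inequality

`hall2d`: four finite sets `G, P, Q, R` of pairs, linked by a relation `r`; if the rows of `Q` and
the columns of `P` satisfy Hall's condition into `R`, then `|P| + |Q| ≤ |R| + |G|`. The proof uses
a generic matrix supported on `r`.
-/

namespace Vale.Agent.P038.H123

open Finset

universe u

/-- A generic matrix supported on the relation `r`: Hall's condition gives injectivity. -/
theorem exists_generic {V : Type u} [Fintype V] [DecidableEq V] (r : V → V → Prop) :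
    ∃ (K : Type u) (_ : Field K) (M : V → V → K),
      (∀ x y, M x y ≠ 0 → r x y) ∧
      ∀ S S' : Finset V,
        (∀ T : Finset V, T ⊆ S → ∃ Y : Finset V, Y ⊆ S' ∧ T.card ≤ Y.card ∧
          ∀ y ∈ Y, ∃ x ∈ T, r x y) →
        ∀ f : V → K, (∀ x, x ∉ S → f x = 0) → (∀ y ∈ S', ∑ x, f x * M x y = 0) →
          ∀ x, f x = 0 := by
  classical
  refine ⟨FractionRing (MvPolynomial (V × V) ℚ), inferInstance, fun x y =>
    algebraMap (MvPolynomial (V × V) ℚ) (FractionRing (MvPolynomial (V × V) ℚ))
      (if r x y then MvPolynomial.X (x, y) else 0), ?_, ?_⟩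
  · intro x y h
    by_contra hr
    apply h
    simp [hr]
  · intro S S' hall f hf hy
    have hm : ∃ m : {x // x ∈ S} → V, Function.Injective m ∧
        ∀ x : {x // x ∈ S}, m x ∈ (S'.filter fun y => r x.1 y) := by
      rw [← Finset.all_card_le_biUnion_card_iff_exists_injective]
      intro s
      obtain ⟨Y, hY1, hY2, hY3⟩ := hall (s.map (Function.Embedding.subtype _)) (by
        intro x hx
        simp only [Finset.mem_map, Function.Embedding.coe_subtype] at hx
        obtain ⟨a, _, rfl⟩ := hx
        exact a.2)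
      rw [Finset.card_map] at hY2
      refine hY2.trans (Finset.card_le_card ?_)
      intro y hyY
      obtain ⟨x, hx, hxy⟩ := hY3 y hyY
      simp only [Finset.mem_map, Function.Embedding.coe_subtype] at hx
      obtain ⟨a, ha, rfl⟩ := hx
      rw [Finset.mem_biUnion]
      exact ⟨a, ha, Finset.mem_filter.2 ⟨hY1 hyY, hxy⟩⟩
    obtain ⟨m, hminj, hmr⟩ := hm
    let C : Matrix {x // x ∈ S} {x // x ∈ S} (MvPolynomial (V × V) ℚ) :=
      fun x x' => if r x.1 (m x') then MvPolynomial.X (x.1, m x') else 0
    have hdet : C.det ≠ 0 := by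
      intro h0
      let φ : MvPolynomial (V × V) ℚ →+* ℚ :=
        MvPolynomial.eval (fun p => if ∃ x : {x // x ∈ S}, p = (x.1, m x) then (1 : ℚ) else 0)
      have h1 : φ C.det = 1 := by
        rw [RingHom.map_det]
        have : φ.mapMatrix C = 1 := by
          ext x x'
          have hentry : (φ.mapMatrix C) x x' =
              φ (if r x.1 (m x') then MvPolynomial.X (x.1, m x') else 0) := rfl
          rw [hentry]
          by_cases hxx : x = x'
          · subst hxx
            have hr : r x.1 (m x) := (Finset.mem_filter.1 (hmr x)).2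
            rw [if_pos hr, Matrix.one_apply_eq]
            simp only [φ, MvPolynomial.eval_X]
            rw [if_pos ⟨x, rfl⟩]
          · rw [Matrix.one_apply_ne hxx]
            by_cases hr : r x.1 (m x')
            · rw [if_pos hr]
              simp only [φ, MvPolynomial.eval_X]
              rw [if_neg]
              rintro ⟨x'', h⟩
              rw [Prod.mk.injEq] at h
              have e1 : x = x'' := Subtype.ext h.1
              have e2 : x' = x'' := hminj h.2
              exact hxx (e1.trans e2.symm)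
            · rw [if_neg hr]
              simp
        rw [this, Matrix.det_one]
      rw [h0, map_zero] at h1
      exact zero_ne_one h1
    let K := FractionRing (MvPolynomial (V × V) ℚ)
    let ι : MvPolynomial (V × V) ℚ →+* K := algebraMap _ _
    have hι : Function.Injective ι := IsFractionRing.injective _ _
    have hdet' : (ι.mapMatrix C).det ≠ 0 := by
      rw [← RingHom.map_det]
      intro h
      exact hdet (hι (by rw [h, map_zero]))
    have hv : Matrix.vecMul (fun x : {x // x ∈ S} => f x.1) (ι.mapMatrix C) = 0 := by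
      ext x'
      have h := hy (m x') (Finset.mem_filter.1 (hmr x')).1
      rw [← Finset.sum_subset (Finset.subset_univ S)
        (fun x _ hx => by rw [hf x hx, zero_mul]), ← Finset.sum_coe_sort] at h
      exact h
    have hz := Matrix.eq_zero_of_vecMul_eq_zero hdet' hv
    intro x
    by_cases hx : x ∈ S
    · exact congrFun hz ⟨x, hx⟩
    · exact hf x hx

/-- The dimension count. -/
theorem dim_ineq {K : Type*} [Field K] {G P Q R : Type*} [Fintype G] [Fintype P] [Fintype Q]
    [Fintype R] [DecidableEq G] [DecidableEq P] [DecidableEq Q] [DecidableEq R]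
    (NQ : Matrix G Q K) (NR : Matrix P R K) (MQ : Matrix R Q K)
    (hMQ : ∀ f : Q → K, MQ.mulVec f = 0 → f = 0)
    (hNR : ∀ g : P → K, Matrix.vecMul g NR = 0 → g = 0)
    (hcomm : ∀ f : Q → K, NQ.mulVec f = 0 → NR.mulVec (MQ.mulVec f) = 0) :
    Fintype.card P + Fintype.card Q ≤ Fintype.card R + Fintype.card G := by
  have hrank : Module.finrank K (LinearMap.range NR.mulVecLin) = Fintype.card P := by
    have h1 : NR.rank = Fintype.card P := by
      have hli : LinearIndependent K NR.row := by
        rw [Fintype.linearIndependent_iff]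
        intro g hg
        have : Matrix.vecMul g NR = 0 := by
          rw [Matrix.vecMul_eq_sum]
          exact hg
        intro i
        exact congrFun (hNR g this) i
      exact hli.rank_matrix
    exact h1
  have h1 := LinearMap.finrank_range_add_finrank_ker NR.mulVecLin
  have h2 := LinearMap.finrank_range_add_finrank_ker NQ.mulVecLin
  rw [Module.finrank_fintype_fun_eq_card] at h1 h2
  have h3 : Module.finrank K (LinearMap.range NQ.mulVecLin) ≤ Fintype.card G := by
    have := Submodule.finrank_le (LinearMap.range NQ.mulVecLin)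
    rwa [Module.finrank_fintype_fun_eq_card] at this
  have h4 : Module.finrank K (LinearMap.ker NQ.mulVecLin) ≤
      Module.finrank K (LinearMap.ker NR.mulVecLin) := by
    have hmap : ∀ f ∈ LinearMap.ker NQ.mulVecLin, MQ.mulVecLin f ∈ LinearMap.ker NR.mulVecLin := by
      intro f hf
      rw [LinearMap.mem_ker] at hf ⊢
      exact hcomm f hf
    apply LinearMap.finrank_le_finrank_of_injective (f := MQ.mulVecLin.restrict hmap)
    intro a b hab
    have hab' : MQ.mulVecLin (a : Q → K) = MQ.mulVecLin (b : Q → K) := congrArg Subtype.val hab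
    have : MQ.mulVec ((a : Q → K) - b) = 0 := by
      have h5 : MQ.mulVecLin ((a : Q → K) - b) = 0 := by
        rw [map_sub, hab', sub_self]
      exact h5
    have h6 := hMQ _ this
    exact Subtype.ext (sub_eq_zero.1 h6)
  omega

/-- The two-dimensional Hall inequality. -/
theorem hall2d {V : Type u} [Fintype V] [DecidableEq V] (r : V → V → Prop)
    (G P Q R : Finset (V × V))
    (h1 : ∀ a b x y, r a b → r x y → (b, x) ∈ Q → (a, y) ∈ P → (a, x) ∈ G ∧ (b, y) ∈ R)
    (h2 : ∀ b, ∀ T : Finset V, (∀ x ∈ T, (b, x) ∈ Q) →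
      ∃ Y : Finset V, (∀ y ∈ Y, (b, y) ∈ R ∧ ∃ x ∈ T, r x y) ∧ T.card ≤ Y.card)
    (h3 : ∀ y, ∀ T : Finset V, (∀ a ∈ T, (a, y) ∈ P) →
      ∃ Y : Finset V, (∀ b ∈ Y, (b, y) ∈ R ∧ ∃ a ∈ T, r a b) ∧ T.card ≤ Y.card) :
    P.card + Q.card ≤ R.card + G.card := by
  classical
  obtain ⟨K, hK, M, hM0, hM⟩ := exists_generic r
  let NQ : Matrix {p // p ∈ G} {p // p ∈ Q} K :=
    fun g q => if g.1.2 = q.1.2 then M g.1.1 q.1.1 else 0
  let NR : Matrix {p // p ∈ P} {p // p ∈ R} K :=
    fun p q => if p.1.2 = q.1.2 then M p.1.1 q.1.1 else 0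
  let MQ : Matrix {p // p ∈ R} {p // p ∈ Q} K :=
    fun t q => if t.1.1 = q.1.1 then M q.1.2 t.1.2 else 0
  have key : ∀ (Z : Finset (V × V)) (f : {p // p ∈ Z} → K) (c : V × V → K),
      ∑ q : {p // p ∈ Z}, c q.1 * f q =
        ∑ b, ∑ x, c (b, x) * (if h : (b, x) ∈ Z then f ⟨(b, x), h⟩ else 0) := by
    intro Z f c
    have e0 : ∑ b, ∑ x, c (b, x) * (if h : (b, x) ∈ Z then f ⟨(b, x), h⟩ else 0) =
        ∑ p : V × V, c p * (if h : p ∈ Z then f ⟨p, h⟩ else 0) := by
      rw [Fintype.sum_prod_type]
    have e1 : ∑ p ∈ Z, c p * (if h : p ∈ Z then f ⟨p, h⟩ else 0) =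
        ∑ p : V × V, c p * (if h : p ∈ Z then f ⟨p, h⟩ else 0) :=
      Finset.sum_subset (Finset.subset_univ Z) (fun p _ hp => by rw [dif_neg hp, mul_zero])
    rw [e0, ← e1, ← Finset.sum_coe_sort Z (fun p => c p * (if h : p ∈ Z then f ⟨p, h⟩ else 0))]
    exact Finset.sum_congr rfl fun q _ => by rw [dif_pos q.2]
  have hNQ : ∀ (f : {p // p ∈ Q} → K) (g : {p // p ∈ G}), NQ.mulVec f g =
      ∑ b, M g.1.1 b * (if h : (b, g.1.2) ∈ Q then f ⟨(b, g.1.2), h⟩ else 0) := by
    intro f g
    have h := key Q f (fun q => if g.1.2 = q.2 then M g.1.1 q.1 else 0)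
    refine Eq.trans h ?_
    refine Finset.sum_congr rfl fun b _ => ?_
    rw [Finset.sum_eq_single g.1.2]
    · simp
    · intro x _ hx
      rw [if_neg (Ne.symm hx), zero_mul]
    · intro hx
      exact absurd (Finset.mem_univ _) hx
  have hNR : ∀ (f : {p // p ∈ R} → K) (g : {p // p ∈ P}), NR.mulVec f g =
      ∑ b, M g.1.1 b * (if h : (b, g.1.2) ∈ R then f ⟨(b, g.1.2), h⟩ else 0) := by
    intro f g
    have h := key R f (fun q => if g.1.2 = q.2 then M g.1.1 q.1 else 0)
    refine Eq.trans h ?_
    refine Finset.sum_congr rfl fun b _ => ?_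
    rw [Finset.sum_eq_single g.1.2]
    · simp
    · intro x _ hx
      rw [if_neg (Ne.symm hx), zero_mul]
    · intro hx
      exact absurd (Finset.mem_univ _) hx
  have hMQ : ∀ (f : {p // p ∈ Q} → K) (t : {p // p ∈ R}), MQ.mulVec f t =
      ∑ x, M x t.1.2 * (if h : (t.1.1, x) ∈ Q then f ⟨(t.1.1, x), h⟩ else 0) := by
    intro f t
    have h := key Q f (fun q => if t.1.1 = q.1 then M q.2 t.1.2 else 0)
    refine Eq.trans h ?_
    rw [Finset.sum_eq_single t.1.1]
    · simp
    · intro b _ hb
      refine Finset.sum_eq_zero fun x _ => ?_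
      rw [if_neg (Ne.symm hb), zero_mul]
    · intro hx
      exact absurd (Finset.mem_univ _) hx
  have main := dim_ineq NQ NR MQ ?_ ?_ ?_
  · simpa using main
  · -- injectivity of `MQ`
    intro f hf
    ext q
    obtain ⟨⟨b, x0⟩, hq⟩ := q
    have hz := hM (Finset.univ.filter fun x => (b, x) ∈ Q) (Finset.univ.filter fun y => (b, y) ∈ R)
      (by
        intro T hT
        obtain ⟨Y, hY1, hY2⟩ := h2 b T (fun x hx => (Finset.mem_filter.1 (hT hx)).2)
        exact ⟨Y, fun y hy => Finset.mem_filter.2 ⟨Finset.mem_univ _, (hY1 y hy).1⟩, hY2,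
          fun y hy => (hY1 y hy).2⟩)
      (fun x => if h : (b, x) ∈ Q then f ⟨(b, x), h⟩ else 0)
      (by
        intro x hx
        have : (b, x) ∉ Q := fun h => hx (Finset.mem_filter.2 ⟨Finset.mem_univ _, h⟩)
        exact dif_neg this)
      (by
        intro y hy
        have hyR : (b, y) ∈ R := (Finset.mem_filter.1 hy).2
        have h := congrFun hf ⟨(b, y), hyR⟩
        rw [hMQ f ⟨(b, y), hyR⟩] at h
        rw [Pi.zero_apply] at h
        exact (Finset.sum_congr rfl fun x _ => mul_comm _ _).trans h)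
      x0
    rw [dif_pos hq] at hz
    exact hz
  · -- injectivity of the transpose of `NR`
    intro g hg
    ext q
    obtain ⟨⟨a0, y⟩, hq⟩ := q
    have hz := hM (Finset.univ.filter fun a => (a, y) ∈ P) (Finset.univ.filter fun b => (b, y) ∈ R)
      (by
        intro T hT
        obtain ⟨Y, hY1, hY2⟩ := h3 y T (fun x hx => (Finset.mem_filter.1 (hT hx)).2)
        exact ⟨Y, fun y hy => Finset.mem_filter.2 ⟨Finset.mem_univ _, (hY1 y hy).1⟩, hY2,
          fun y hy => (hY1 y hy).2⟩)
      (fun a => if h : (a, y) ∈ P then g ⟨(a, y), h⟩ else 0)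
      (by
        intro x hx
        have : (x, y) ∉ P := fun h => hx (Finset.mem_filter.2 ⟨Finset.mem_univ _, h⟩)
        exact dif_neg this)
      (by
        intro b hb
        have hbR : (b, y) ∈ R := (Finset.mem_filter.1 hb).2
        have h := congrFun hg ⟨(b, y), hbR⟩
        rw [Pi.zero_apply] at h
        have h' := key P g (fun p => if p.2 = y then M p.1 b else 0)
        have h'' : Matrix.vecMul g NR ⟨(b, y), hbR⟩ =
            ∑ q : {p // p ∈ P}, (if q.1.2 = y then M q.1.1 b else 0) * g q := by
          refine Finset.sum_congr rfl fun q _ => ?_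
          exact mul_comm _ _
        rw [h'', h'] at h
        refine Eq.trans (Finset.sum_congr rfl fun a _ => ?_) h
        rw [Finset.sum_eq_single (f := fun x => (if (a, x).2 = y then M (a, x).1 b else 0) *
          (if h : (a, x) ∈ P then g ⟨(a, x), h⟩ else 0)) y]
        · simp only [if_true]
          exact mul_comm _ _
        · intro x _ hx
          rw [if_neg hx, zero_mul]
        · intro hx
          exact absurd (Finset.mem_univ _) hx)
      a0
    rw [dif_pos hq] at hz
    exact hz
  · -- commutation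
    intro f hf
    ext p
    obtain ⟨⟨a, y⟩, hp⟩ := p
    rw [hNR, Pi.zero_apply]
    have e1 : ∀ b, M a b * (if h : (b, y) ∈ R then MQ.mulVec f ⟨(b, y), h⟩ else 0) =
        ∑ x, M x y * (M a b * (if h : (b, x) ∈ Q then f ⟨(b, x), h⟩ else 0)) := by
      intro b
      by_cases hb : (b, y) ∈ R
      · rw [dif_pos hb, hMQ, Finset.mul_sum]
        refine Finset.sum_congr rfl fun x _ => ?_
        ring
      · rw [dif_neg hb, mul_zero]
        symm
        refine Finset.sum_eq_zero fun x _ => ?_
        by_cases hr1 : M a b = 0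
        · rw [hr1]; ring
        by_cases hr2 : M x y = 0
        · rw [hr2]; ring
        by_cases hq : (b, x) ∈ Q
        · exact absurd (h1 a b x y (hM0 _ _ hr1) (hM0 _ _ hr2) hq hp).2 hb
        · rw [dif_neg hq]; ring
    refine (Finset.sum_congr rfl fun b _ => e1 b).trans ?_
    rw [Finset.sum_comm]
    refine Finset.sum_eq_zero fun x _ => ?_
    rw [← Finset.mul_sum]
    by_cases hr2 : M x y = 0
    · rw [hr2, zero_mul]
    by_cases hg : (a, x) ∈ G
    · have h := congrFun hf ⟨(a, x), hg⟩
      rw [hNQ f ⟨(a, x), hg⟩, Pi.zero_apply] at h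
      rw [h, mul_zero]
    · rw [Finset.sum_eq_zero, mul_zero]
      intro b _
      by_cases hr1 : M a b = 0
      · rw [hr1]; ring
      by_cases hq : (b, x) ∈ Q
      · exact absurd (h1 a b x y (hM0 _ _ hr1) (hM0 _ _ hr2) hq hp).1 hg
      · rw [dif_neg hq]; ring

end Vale.Agent.P038.H123
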